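import Mathlib

namespace Vale.Agent.Results.P344.DftGateLowerBound

open scoped BigOperators
open Classical

/-- A gate of a linear circuit. Operands are positions in the list of values computed so far:
position `0` holds the constant `0`, positions `1, ..., n` hold the inputs, and later
positions hold the values of the earlier gates, in order. -/
inductive Gate : Type
  | add (i j : ℕ) : Gate
  | sub (i j : ℕ) : Gate
  | smul (c : ℂ) (i : ℕ) : Gate

/-- The value computed by a gate from the list `vs` of previously computed values
(a position outside the list reads as `0`, which is available as a constant anyway). -/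
def Gate.val {M : Type} [AddCommGroup M] [Module ℂ M] (vs : List M) : Gate → M
  | Gate.add i j => vs.getD i 0 + vs.getD j 0
  | Gate.sub i j => vs.getD i 0 - vs.getD j 0
  | Gate.smul c i => c • vs.getD i 0

/-- Run a circuit from the list `init` of initial values: each gate appends its value. -/
def runFrom {M : Type} [AddCommGroup M] [Module ℂ M] (init : List M) (c : List Gate) : List M :=
  c.foldl (fun vs g => vs ++ [g.val vs]) init

/-- All values of the circuit `c` on the input `x`: the constant `0`, the inputs
`x 0, ..., x (n-1)`, then the values of the gates of `c` in order. -/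
def run {n : ℕ} (c : List Gate) (x : Fin n → ℂ) : List ℂ :=
  runFrom (0 :: List.ofFn x) c

/-- The circuit `c`, with designated output positions `out`, computes the unnormalized
discrete Fourier transform of order `n`: for every input `x` and every `j`, the value at
position `out j` is `∑ k, ζ ^ (j * k) * x k` with `ζ = exp (2 π i / n)`. -/
def ComputesDFT (n : ℕ) (c : List Gate) (out : Fin n → ℕ) : Prop :=
  ∀ (x : Fin n → ℂ) (j : Fin n),
    (run c x).getD (out j) 0 =
      ∑ k : Fin n, Complex.exp (2 * Real.pi * Complex.I / n) ^ ((j : ℕ) * (k : ℕ)) * x k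

/-! ### Transport of runs along linear maps -/

theorem getD_map_lin {M N : Type} [AddCommGroup M] [Module ℂ M] [AddCommGroup N] [Module ℂ N]
    (f : M →ₗ[ℂ] N) (vs : List M) (i : ℕ) : (vs.map f).getD i 0 = f (vs.getD i 0) := by
  rw [List.getD_eq_getElem?_getD, List.getD_eq_getElem?_getD, List.getElem?_map]
  cases h : vs[i]? <;> simp

theorem val_map_lin {M N : Type} [AddCommGroup M] [Module ℂ M] [AddCommGroup N] [Module ℂ N]
    (f : M →ₗ[ℂ] N) (vs : List M) (g : Gate) : g.val (vs.map f) = f (g.val vs) := by
  cases g <;> simp only [Gate.val, getD_map_lin, map_add, map_sub, map_smul]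

theorem runFrom_map_lin {M N : Type} [AddCommGroup M] [Module ℂ M] [AddCommGroup N] [Module ℂ N]
    (f : M →ₗ[ℂ] N) (c : List Gate) : ∀ init : List M,
      runFrom (init.map f) c = (runFrom init c).map f := by
  induction c with
  | nil => intro init; rfl
  | cons g c ih =>
    intro init
    have : (init.map f) ++ [g.val (init.map f)] = (init ++ [g.val init]).map f := by
      simp [val_map_lin]
    simp only [runFrom, List.foldl_cons] at ih ⊢
    rw [this]
    exact ih _

theorem runFrom_append {M : Type} [AddCommGroup M] [Module ℂ M] (init : List M) (c : List Gate)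
    (g : Gate) : runFrom init (c ++ [g]) = runFrom init c ++ [g.val (runFrom init c)] := by
  simp [runFrom, List.foldl_append]

/-! ### Coefficient vectors -/

/-- The standard basis vector. -/
noncomputable def bas (n : ℕ) (k : Fin n) : Fin n → ℂ := Pi.single k 1

/-- The run of the circuit on coefficient vectors (linear forms in the inputs). -/
noncomputable def coefRun (n : ℕ) (c : List Gate) : List (Fin n → ℂ) :=
  runFrom (0 :: List.ofFn (bas n)) c

/-- Pairing of a coefficient vector with an input vector. -/
noncomputable def pair {n : ℕ} (x : Fin n → ℂ) : (Fin n → ℂ) →ₗ[ℂ] ℂ :=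
  ∑ k : Fin n, x k • (LinearMap.proj k : (Fin n → ℂ) →ₗ[ℂ] ℂ)

theorem pair_apply {n : ℕ} (x v : Fin n → ℂ) : pair x v = ∑ k : Fin n, x k * v k := by
  simp [pair, LinearMap.sum_apply]

theorem pair_bas {n : ℕ} (x : Fin n → ℂ) (k : Fin n) : pair x (bas n k) = x k := by
  simp [pair_apply, bas, Pi.single_apply]

theorem pair_bas' {n : ℕ} (v : Fin n → ℂ) (k : Fin n) : pair (bas n k) v = v k := by
  simp [pair_apply, bas, Pi.single_apply]

theorem run_eq_map {n : ℕ} (c : List Gate) (x : Fin n → ℂ) :
    run c x = (coefRun n c).map (pair x) := by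
  unfold run coefRun
  rw [← runFrom_map_lin]
  congr 1
  simp only [List.map_cons, map_zero, List.map_ofFn]
  congr 1
  congr 1
  funext k
  simp [pair_bas]

/-- Row `j` of the Fourier matrix. -/
noncomputable def row (n : ℕ) (j : Fin n) : Fin n → ℂ :=
  fun k => Complex.exp (2 * Real.pi * Complex.I / n) ^ ((j : ℕ) * (k : ℕ))

theorem coef_out {n : ℕ} {c : List Gate} {out : Fin n → ℕ} (h : ComputesDFT n c out)
    (j : Fin n) : (coefRun n c).getD (out j) 0 = row n j := by
  funext k
  have := h (bas n k) j
  rw [run_eq_map, getD_map_lin, pair_bas'] at this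
  rw [this]
  simp [bas, Pi.single_apply, row]

theorem getD_cases {M : Type} [Zero M] (vs : List M) (i : ℕ) :
    vs.getD i 0 ∈ vs ∨ vs.getD i 0 = 0 := by
  rw [List.getD_eq_getElem?_getD]
  cases h : vs[i]? with
  | none => right; rfl
  | some a => left; exact List.mem_of_getElem? h

/-! ### Counting scalar gates -/

/-- Whether a gate is a scalar multiplication. -/
def Gate.isSmul : Gate → Bool
  | Gate.smul _ _ => true
  | _ => false

theorem inv_smul (n : ℕ) (c : List Gate) :
    ∃ T : Finset (Fin n → ℂ), T.card ≤ n + c.countP Gate.isSmul ∧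
      (∀ k, bas n k ∈ Submodule.span ℚ (T : Set (Fin n → ℂ))) ∧
      ∀ v ∈ coefRun n c, v ∈ Submodule.span ℚ (T : Set (Fin n → ℂ)) := by
  induction c using List.reverseRecOn with
  | nil =>
    refine ⟨Finset.univ.image (bas n), ?_, ?_, ?_⟩
    · simpa using (Finset.card_image_le (s := (Finset.univ : Finset (Fin n))) (f := bas n))
    · intro k
      exact Submodule.subset_span (by simp)
    · intro v hv
      simp only [coefRun, runFrom, List.foldl_nil, List.mem_cons, List.mem_ofFn] at hv
      rcases hv with rfl | ⟨k, rfl⟩
      · exact Submodule.zero_mem _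
      · exact Submodule.subset_span (by simp)
  | append_singleton c g ih =>
    obtain ⟨T, hT, hbas, hmem⟩ := ih
    have hget : ∀ i, (coefRun n c).getD i 0 ∈ Submodule.span ℚ (T : Set (Fin n → ℂ)) := by
      intro i
      rcases getD_cases (coefRun n c) i with h | h
      · exact hmem _ h
      · rw [h]; exact Submodule.zero_mem _
    have hrun : coefRun n (c ++ [g]) = coefRun n c ++ [g.val (coefRun n c)] := by
      unfold coefRun; exact runFrom_append _ _ _
    cases g with
    | add i j =>
      refine ⟨T, ?_, hbas, ?_⟩
      · simpa [List.countP_append, Gate.isSmul] using hT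
      · intro v hv
        rw [hrun] at hv
        rcases List.mem_append.mp hv with hv | hv
        · exact hmem v hv
        · have hv' : v = (coefRun n c).getD i 0 + (coefRun n c).getD j 0 := by
            simpa [Gate.val] using hv
          rw [hv']
          exact Submodule.add_mem _ (hget i) (hget j)
    | sub i j =>
      refine ⟨T, ?_, hbas, ?_⟩
      · simpa [List.countP_append, Gate.isSmul] using hT
      · intro v hv
        rw [hrun] at hv
        rcases List.mem_append.mp hv with hv | hv
        · exact hmem v hv
        · have hv' : v = (coefRun n c).getD i 0 - (coefRun n c).getD j 0 := by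
            simpa [Gate.val] using hv
          rw [hv']
          exact Submodule.sub_mem _ (hget i) (hget j)
    | smul a i =>
      refine ⟨insert (a • (coefRun n c).getD i 0) T, ?_, ?_, ?_⟩
      · have h1 := Finset.card_insert_le (a • (coefRun n c).getD i 0) T
        have h2 : (c ++ [Gate.smul a i]).countP Gate.isSmul = c.countP Gate.isSmul + 1 := by
          simp [List.countP_append, Gate.isSmul]
        omega
      · intro k
        exact Submodule.span_mono (by simp) (hbas k)
      · intro v hv
        rw [hrun] at hv
        rcases List.mem_append.mp hv with hv | hv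
        · exact Submodule.span_mono (by simp) (hmem v hv)
        · have hv' : v = a • (coefRun n c).getD i 0 := by
            simpa [Gate.val] using hv
          rw [hv']
          exact Submodule.subset_span (by simp)

/-- The basis vectors together with the rows `1, ..., φ(n) - 1` of the Fourier matrix are
linearly independent over the rationals. -/
theorem li_family (n m : ℕ) (hn : 2 ≤ n) (hm : Nat.totient n = m + 1) :
    LinearIndependent ℚ (Sum.elim (bas n)
      (fun j : Fin m => row n ⟨(j : ℕ) + 1, by
        have := Nat.totient_le n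
        omega⟩)) := by
  set ζ : ℂ := Complex.exp (2 * Real.pi * Complex.I / n) with hζ
  have hprim : IsPrimitiveRoot ζ n := Complex.isPrimitiveRoot_exp n (by omega)
  have hdeg : (minpoly ℚ ζ).natDegree = m + 1 := by
    rw [← Polynomial.cyclotomic_eq_minpoly_rat hprim (by omega), Polynomial.natDegree_cyclotomic,
      hm]
  have hLI : LinearIndependent ℚ (fun i : Fin (m + 1) => ζ ^ (i : ℕ)) := by
    have := linearIndependent_pow (K := ℚ) ζ
    rw [hdeg] at this
    exact this
  rw [Fintype.linearIndependent_iff]
  intro g hg
  rw [Fintype.sum_sum_type] at hg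
  simp only [Sum.elim_inl, Sum.elim_inr] at hg
  let k1 : Fin n := ⟨1, by omega⟩
  have h1 := congrFun hg k1
  simp only [Pi.add_apply, Finset.sum_apply, Pi.smul_apply, Pi.zero_apply, bas, row,
    Pi.single_apply] at h1
  have hG := Fintype.linearIndependent_iff.mp hLI
    (Fin.cons (g (Sum.inl k1)) (fun j => g (Sum.inr j)))
  have hsum : ∑ i : Fin (m + 1),
      (Fin.cons (g (Sum.inl k1)) (fun j => g (Sum.inr j)) : Fin (m + 1) → ℚ) i • ζ ^ (i : ℕ)
        = 0 := by
    rw [Fin.sum_univ_succ]
    simp only [Fin.cons_zero, Fin.cons_succ, Fin.val_zero, pow_zero, Fin.val_succ]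
    rw [← h1]
    congr 1
    · simp [k1]
    · apply Finset.sum_congr rfl
      intro j _
      simp [k1, hζ]
  have hG' := hG hsum
  have hr : ∀ j : Fin m, g (Sum.inr j) = 0 := fun j => by
    have := hG' j.succ
    simpa using this
  have hl : ∀ k : Fin n, g (Sum.inl k) = 0 := by
    intro k
    have h2 := congrFun hg k
    simp only [Pi.add_apply, Finset.sum_apply, Pi.smul_apply, Pi.zero_apply, bas, hr,
      zero_smul, Finset.sum_const_zero, add_zero, Pi.single_apply] at h2
    simpa using h2
  intro i
  cases i with
  | inl k => exact hl k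
  | inr j => exact hr j

/-! ### Counting additions and subtractions -/

/-- A coefficient vector all of whose coordinates are nonzero. -/
def Full {n : ℕ} (v : Fin n → ℂ) : Prop := ∀ k, v k ≠ 0

/-- Normalisation of a vector by its coordinate `0`. -/
noncomputable def nrm {n : ℕ} [NeZero n] (v : Fin n → ℂ) : Fin n → ℂ := (v 0)⁻¹ • v

/-- The normalised vectors with all coordinates nonzero in a list. -/
noncomputable def Nset {n : ℕ} [NeZero n] (vs : List (Fin n → ℂ)) : Finset (Fin n → ℂ) :=
  (vs.toFinset.filter Full).image nrm

theorem Nset_subset_append {n : ℕ} [NeZero n] (vs : List (Fin n → ℂ)) (v : Fin n → ℂ) :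
    Nset vs ⊆ Nset (vs ++ [v]) := by
  unfold Nset
  apply Finset.image_subset_image
  apply Finset.filter_subset_filter
  intro x hx
  simp only [List.mem_toFinset] at hx ⊢
  exact List.mem_append_left _ hx

theorem Nset_append_subset {n : ℕ} [NeZero n] (vs : List (Fin n → ℂ)) (v : Fin n → ℂ) :
    Nset (vs ++ [v]) ⊆ insert (nrm v) (Nset vs) := by
  unfold Nset
  intro x hx
  simp only [Finset.mem_image, Finset.mem_filter, List.mem_toFinset, List.mem_append,
    List.mem_singleton, Finset.mem_insert] at hx ⊢
  obtain ⟨w, ⟨hw | hw, hfull⟩, rfl⟩ := hx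
  · right; exact ⟨w, ⟨hw, hfull⟩, rfl⟩
  · left; rw [hw]

theorem Nset_card_append {n : ℕ} [NeZero n] (vs : List (Fin n → ℂ)) (v : Fin n → ℂ) :
    (Nset (vs ++ [v])).card ≤ (Nset vs).card + 1 :=
  (Finset.card_le_card (Nset_append_subset vs v)).trans (Finset.card_insert_le _ _)

theorem Nset_append_smul {n : ℕ} [NeZero n] (vs : List (Fin n → ℂ)) (a : ℂ) (u : Fin n → ℂ)
    (hu : u ∈ vs ∨ u = 0) : Nset (vs ++ [a • u]) = Nset vs := by
  apply Finset.Subset.antisymm _ (Nset_subset_append vs _)
  unfold Nset
  intro x hx
  simp only [Finset.mem_image, Finset.mem_filter, List.mem_toFinset, List.mem_append,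
    List.mem_singleton] at hx ⊢
  obtain ⟨w, ⟨hw | hw, hfull⟩, rfl⟩ := hx
  · exact ⟨w, ⟨hw, hfull⟩, rfl⟩
  · subst hw
    have ha : a ≠ 0 := by
      intro ha
      exact hfull 0 (by simp [ha])
    have hufull : Full u := by
      intro k hk
      exact hfull k (by simp [hk])
    have humem : u ∈ vs := by
      rcases hu with hu | hu
      · exact hu
      · exact absurd (by simp [hu]) (hufull 0)
    refine ⟨u, ⟨humem, hufull⟩, ?_⟩
    unfold nrm
    rw [Pi.smul_apply, smul_eq_mul, smul_smul]
    congr 1
    field_simp

theorem step_bin {n : ℕ} [NeZero n] (vs : List (Fin n → ℂ)) (a b v : Fin n → ℂ) (B : ℕ)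
    (ha : a ∈ vs ∨ a = 0) (hb : b ∈ vs ∨ b = 0)
    (hv : ∀ k, v k ≠ 0 → a k ≠ 0 ∨ b k ≠ 0)
    (h : ∃ l : Fin n → Fin n,
      (∀ w ∈ vs, ∀ k k', w k ≠ 0 → w k' ≠ 0 → l k = l k') ∧
      (Nset vs = ∅ → n ≤ (Finset.univ.image l).card + B) ∧
      (Nset vs).card + n ≤ (Finset.univ.image l).card + B + 1) :
    ∃ l : Fin n → Fin n,
      (∀ w ∈ vs ++ [v], ∀ k k', w k ≠ 0 → w k' ≠ 0 → l k = l k') ∧
      (Nset (vs ++ [v]) = ∅ → n ≤ (Finset.univ.image l).card + (B + 1)) ∧
      (Nset (vs ++ [v])).card + n ≤ (Finset.univ.image l).card + (B + 1) + 1 := by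
  obtain ⟨l, hcls, h1, h2⟩ := h
  have hsub := Nset_subset_append vs v
  have hcard := Nset_card_append vs v
  have hclsa : ∀ k k', a k ≠ 0 → a k' ≠ 0 → l k = l k' := by
    rcases ha with ha | ha
    · exact hcls a ha
    · intro k k' hk; exact absurd (by simp [ha]) hk
  have hclsb : ∀ k k', b k ≠ 0 → b k' ≠ 0 → l k = l k' := by
    rcases hb with hb | hb
    · exact hcls b hb
    · intro k k' hk; exact absurd (by simp [hb]) hk
  by_cases hm : ∃ k k', a k ≠ 0 ∧ b k' ≠ 0 ∧ l k ≠ l k'
  · obtain ⟨k0, k1, hk0, hk1, hne⟩ := hm
    have hN : Nset vs = ∅ := by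
      by_contra hne'
      obtain ⟨z, hz⟩ := Finset.nonempty_iff_ne_empty.mpr hne'
      simp only [Nset, Finset.mem_image, Finset.mem_filter, List.mem_toFinset] at hz
      obtain ⟨w, ⟨hw, hfull⟩, _⟩ := hz
      exact hne (hcls w hw k0 k1 (hfull k0) (hfull k1))
    have hc : (Finset.univ.image l).card
        ≤ (Finset.univ.image (fun k => if l k = l k1 then l k0 else l k)).card + 1 := by
      have hsub' : Finset.univ.image l
          ⊆ insert (l k1) (Finset.univ.image (fun k => if l k = l k1 then l k0 else l k)) := by
        intro x hx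
        simp only [Finset.mem_image, Finset.mem_univ, true_and] at hx
        obtain ⟨k, rfl⟩ := hx
        rw [Finset.mem_insert]
        by_cases hk : l k = l k1
        · left; exact hk
        · right
          rw [Finset.mem_image]
          exact ⟨k, Finset.mem_univ k, by simp only [hk, if_false]⟩
      exact (Finset.card_le_card hsub').trans (Finset.card_insert_le _ _)
    have h1' := h1 hN
    refine ⟨fun k => if l k = l k1 then l k0 else l k, ?_, ?_, ?_⟩
    · intro w hw k k' hk hk'
      rcases List.mem_append.mp hw with hw | hw
      · have := hcls w hw k k' hk hk'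
        simp only [this]
      · have hw' : w = v := by simpa using hw
        subst hw'
        have key : ∀ k, w k ≠ 0 → (if l k = l k1 then l k0 else l k) = l k0 := by
          intro k hk
          rcases hv k hk with h | h
          · have : l k = l k0 := hclsa k k0 h hk0
            simp only [this, hne, if_false]
          · have : l k = l k1 := hclsb k k1 h hk1
            simp only [this, if_true]
        beta_reduce
        rw [key k hk, key k' hk']
    · intro _
      omega
    · have : (Nset (vs ++ [v])).card ≤ 1 := by
        rw [hN] at hcard; simpa using hcard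
      omega
  · push Not at hm
    refine ⟨l, ?_, ?_, ?_⟩
    · intro w hw k k' hk hk'
      rcases List.mem_append.mp hw with hw | hw
      · exact hcls w hw k k' hk hk'
      · have hw' : w = v := by simpa using hw
        subst hw'
        rcases hv k hk with h | h <;> rcases hv k' hk' with h' | h'
        · exact hclsa k k' h h'
        · exact hm k k' h h'
        · exact (hm k' k h' h).symm
        · exact hclsb k k' h h'
    · intro hN'
      have : Nset vs = ∅ := Finset.subset_empty.mp (hN' ▸ hsub)
      have := h1 this
      omega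
    · omega

theorem inv_bin (n : ℕ) [NeZero n] (hn : 2 ≤ n) (c : List Gate) :
    ∃ l : Fin n → Fin n,
      (∀ w ∈ coefRun n c, ∀ k k', w k ≠ 0 → w k' ≠ 0 → l k = l k') ∧
      (Nset (coefRun n c) = ∅ →
        n ≤ (Finset.univ.image l).card + c.countP (fun g => ¬ Gate.isSmul g)) ∧
      (Nset (coefRun n c)).card + n
        ≤ (Finset.univ.image l).card + c.countP (fun g => ¬ Gate.isSmul g) + 1 := by
  induction c using List.reverseRecOn with
  | nil =>
    have hN : Nset (coefRun n []) = ∅ := by
      unfold Nset
      rw [Finset.image_eq_empty, Finset.filter_eq_empty_iff]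
      intro v hv hfull
      simp only [coefRun, runFrom, List.foldl_nil, List.toFinset_cons, Finset.mem_insert,
        List.mem_toFinset, List.mem_ofFn] at hv
      rcases hv with rfl | ⟨k, rfl⟩
      · exact hfull 0 rfl
      · obtain ⟨k', hk'⟩ : ∃ k' : Fin n, k' ≠ k := by
          by_cases hk : (k : ℕ) = 0
          · exact ⟨⟨1, by omega⟩, fun h => by rw [← h] at hk; simp at hk⟩
          · exact ⟨⟨0, by omega⟩, fun h => by rw [← h] at hk; simp at hk⟩
        exact hfull k' (by simp [bas, hk'])
    refine ⟨id, ?_, ?_, ?_⟩
    · intro w hw k k' hk hk'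
      simp only [coefRun, runFrom, List.foldl_nil, List.mem_cons, List.mem_ofFn] at hw
      rcases hw with rfl | ⟨k2, rfl⟩
      · exact absurd rfl hk
      · simp only [bas, Pi.single_apply, ne_eq, ite_eq_right_iff, one_ne_zero, imp_false,
          not_not] at hk hk'
        simp [hk, hk']
    · intro _; simp
    · rw [hN]; simp
  | append_singleton c g ih =>
    have hrun : coefRun n (c ++ [g]) = coefRun n c ++ [g.val (coefRun n c)] := by
      unfold coefRun; exact runFrom_append _ _ _
    rw [hrun]
    cases g with
    | add i j =>
      have hcount : (c ++ [Gate.add i j]).countP (fun g => ¬ Gate.isSmul g)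
          = c.countP (fun g => ¬ Gate.isSmul g) + 1 := by
        simp [List.countP_append, Gate.isSmul]
      rw [hcount]
      apply step_bin _ ((coefRun n c).getD i 0) ((coefRun n c).getD j 0) _ _
        (getD_cases _ _) (getD_cases _ _) _ ih
      intro k hk
      by_contra hcon
      push Not at hcon
      apply hk
      show (coefRun n c).getD i 0 k + (coefRun n c).getD j 0 k = 0
      rw [hcon.1, hcon.2, add_zero]
    | sub i j =>
      have hcount : (c ++ [Gate.sub i j]).countP (fun g => ¬ Gate.isSmul g)
          = c.countP (fun g => ¬ Gate.isSmul g) + 1 := by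
        simp [List.countP_append, Gate.isSmul]
      rw [hcount]
      apply step_bin _ ((coefRun n c).getD i 0) ((coefRun n c).getD j 0) _ _
        (getD_cases _ _) (getD_cases _ _) _ ih
      intro k hk
      by_contra hcon
      push Not at hcon
      apply hk
      show (coefRun n c).getD i 0 k - (coefRun n c).getD j 0 k = 0
      rw [hcon.1, hcon.2, sub_zero]
    | smul a i =>
      have hcount : (c ++ [Gate.smul a i]).countP (fun g => ¬ Gate.isSmul g)
          = c.countP (fun g => ¬ Gate.isSmul g) := by
        simp [List.countP_append, Gate.isSmul]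
      rw [hcount]
      obtain ⟨l, hcls, h1, h2⟩ := ih
      have hval : (Gate.smul a i).val (coefRun n c) = a • (coefRun n c).getD i 0 := rfl
      rw [hval, Nset_append_smul _ _ _ (getD_cases _ _)]
      refine ⟨l, ?_, h1, h2⟩
      intro w hw k k' hk hk'
      rcases List.mem_append.mp hw with hw | hw
      · exact hcls w hw k k' hk hk'
      · have hw' : w = a • (coefRun n c).getD i 0 := by simpa using hw
        subst hw'
        have hk2 : (coefRun n c).getD i 0 k ≠ 0 :=
          fun h => hk (by rw [Pi.smul_apply, h, smul_zero])
        have hk2' : (coefRun n c).getD i 0 k' ≠ 0 :=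
          fun h => hk' (by rw [Pi.smul_apply, h, smul_zero])
        rcases getD_cases (coefRun n c) i with hmem | hz
        · exact hcls _ hmem k k' hk2 hk2'
        · exact absurd (by rw [hz]; rfl) hk2

/-- **Lower bound for linear circuits computing the discrete Fourier transform.**
Every linear circuit (gates `u + v`, `u - v`, `λ • u`, each of cost one, arbitrary complex
scalars, unrestricted depth and reuse) that computes the unnormalized discrete Fourier
transform of order `n ≥ 2` has at least `2 n + φ(n) - 3` gates, where `φ` is Euler's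
totient function. -/
theorem result (n : ℕ) (hn : 2 ≤ n) (c : List Gate) (out : Fin n → ℕ)
    (h : ComputesDFT n c out) : 2 * n + Nat.totient n ≤ c.length + 3 := by
  have : NeZero n := ⟨by omega⟩
  set ζ : ℂ := Complex.exp (2 * Real.pi * Complex.I / n) with hζ
  have hprim : IsPrimitiveRoot ζ n := Complex.isPrimitiveRoot_exp n (by omega)
  have hζ0 : ζ ≠ 0 := Complex.exp_ne_zero _
  have hrow : ∀ j, (coefRun n c).getD (out j) 0 = row n j := coef_out h
  have hfull : ∀ j, Full (row n j) := fun j k => pow_ne_zero _ hζ0
  have hrowmem : ∀ j, row n j ∈ coefRun n c := by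
    intro j
    rcases getD_cases (coefRun n c) (out j) with hm | hz
    · rw [hrow] at hm; exact hm
    · rw [hrow] at hz; exact absurd (congrFun hz 0) (hfull j 0)
  -- scalar gates
  obtain ⟨T, hT, hTbas, hTmem⟩ := inv_smul n c
  have hpos : 0 < Nat.totient n := Nat.totient_pos.mpr (by omega)
  obtain ⟨m, hm⟩ : ∃ m, Nat.totient n = m + 1 := ⟨Nat.totient n - 1, by omega⟩
  have hLI := li_family n m hn hm
  have hS : n + m ≤ T.card := by
    have := linearIndependent_le_span_aux' _ hLI (T : Set (Fin n → ℂ)) (by
      rintro _ ⟨i, rfl⟩
      cases i with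
      | inl k => exact hTbas k
      | inr j => exact hTmem _ (hrowmem _))
    simpa using this
  -- additions and subtractions
  obtain ⟨l, hcls, h1, h2⟩ := inv_bin n hn c
  have hN : n ≤ (Nset (coefRun n c)).card := by
    have hsub : Finset.univ.image (row n) ⊆ Nset (coefRun n c) := by
      intro x hx
      simp only [Finset.mem_image, Finset.mem_univ, true_and] at hx
      obtain ⟨j, rfl⟩ := hx
      simp only [Nset, Finset.mem_image, Finset.mem_filter, List.mem_toFinset]
      refine ⟨row n j, ⟨hrowmem j, hfull j⟩, ?_⟩
      unfold nrm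
      simp [row]
    have hinj : Function.Injective (row n) := by
      intro j j' hjj
      have := congrFun hjj ⟨1, by omega⟩
      simp only [row, mul_one] at this
      exact Fin.ext (hprim.pow_inj j.2 j'.2 this)
    calc n = (Finset.univ.image (row n)).card := by
          rw [Finset.card_image_of_injective _ hinj]; simp
      _ ≤ _ := Finset.card_le_card hsub
  have hl : (Finset.univ.image l).card ≤ 1 := by
    apply Finset.card_le_one.mpr
    intro x hx y hy
    simp only [Finset.mem_image, Finset.mem_univ, true_and] at hx hy
    obtain ⟨k, rfl⟩ := hx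
    obtain ⟨k', rfl⟩ := hy
    exact hcls _ (hrowmem 0) k k' (hfull 0 k) (hfull 0 k')
  have hlen := List.length_eq_countP_add_countP Gate.isSmul (l := c)
  omega

end Vale.Agent.Results.P344.DftGateLowerBound
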