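import Vale.Agent.Results.P344.DftGateLowerBound

namespace Vale.Agent.Results.P344.DftGateLowerBoundAllN

open Vale.Agent.Results.P344.DftGateLowerBound
open scoped BigOperators
open Classical Polynomial

/-- Indices `1 ≤ j < n` that do not divide `n`. -/
abbrev NonDiv (n : ℕ) : Type := {j : Fin n // (j : ℕ) ≠ 0 ∧ ¬ (j : ℕ) ∣ n}

theorem geom_zero (n : ℕ) (ρ : ℂ) (h1 : ρ ^ n = 1) (h2 : ρ ≠ 1) :
    ∑ k : Fin n, ρ ^ (k : ℕ) = 0 := by
  rw [Fin.sum_univ_eq_sum_range (fun k => ρ ^ k) n, geom_sum_eq h2, h1, sub_self, zero_div]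

theorem card_nonDiv (n : ℕ) (hn : 2 ≤ n) :
    Fintype.card (NonDiv n) + (Nat.divisors n).card = n := by
  have hn0 : n ≠ 0 := by omega
  rw [Fintype.card_subtype]
  have hbij : (Finset.univ.filter (fun j : Fin n => ¬ ((j : ℕ) ≠ 0 ∧ ¬ (j : ℕ) ∣ n))).card
      = (Nat.divisors n).card := by
    apply Finset.card_bij (fun (j : Fin n) _ => if (j : ℕ) = 0 then n else (j : ℕ))
    · intro j hj
      simp only [Finset.mem_filter, Finset.mem_univ, true_and] at hj
      rw [Nat.mem_divisors]
      refine ⟨?_, hn0⟩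
      by_cases h0 : (j : ℕ) = 0
      · simp [h0]
      · simp only [h0, if_false]
        by_contra hnd
        exact hj ⟨h0, hnd⟩
    · intro j hj j' hj' heq
      by_cases h0 : (j : ℕ) = 0 <;> by_cases h0' : (j' : ℕ) = 0
      · exact Fin.ext (h0.trans h0'.symm)
      · simp only [h0, h0', if_true, if_false] at heq
        have := j'.isLt
        omega
      · simp only [h0, h0', if_true, if_false] at heq
        have := j.isLt
        omega
      · simp only [h0, h0', if_false] at heq
        exact Fin.ext heq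
    · intro d hd
      rw [Nat.mem_divisors] at hd
      have hdle : d ≤ n := Nat.le_of_dvd (by omega) hd.1
      have hdpos : 0 < d := Nat.pos_of_dvd_of_pos hd.1 (by omega)
      by_cases hdn : d = n
      · refine ⟨⟨0, by omega⟩, ?_, ?_⟩
        · simp
        · simp [hdn]
      · have hlt : d < n := lt_of_le_of_ne hdle hdn
        refine ⟨⟨d, hlt⟩, ?_, ?_⟩
        · simp only [Finset.mem_filter, Finset.mem_univ, true_and]
          intro hcon
          exact hcon.2 hd.1
        · simp only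
          rw [if_neg (by omega)]
  rw [← hbij]
  have := Finset.card_filter_add_card_filter_not
    (s := (Finset.univ : Finset (Fin n))) (fun j : Fin n => (j : ℕ) ≠ 0 ∧ ¬ (j : ℕ) ∣ n)
  simpa using this

theorem li_family2 (n : ℕ) (hn : 2 ≤ n) :
    LinearIndependent ℚ (Sum.elim (bas n) (fun j : NonDiv n => row n j.1)) := by
  have hn0 : n ≠ 0 := by omega
  set ζ : ℂ := Complex.exp (2 * Real.pi * Complex.I / n) with hζ
  have hprim : IsPrimitiveRoot ζ n := Complex.isPrimitiveRoot_exp n hn0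
  have hζ0 : ζ ≠ 0 := Complex.exp_ne_zero _
  set ξ : ℂ := ζ⁻¹ with hξ
  have hprimξ : IsPrimitiveRoot ξ n := hprim.inv
  have hζξ : ζ * ξ = 1 := mul_inv_cancel₀ hζ0
  rw [Fintype.linearIndependent_iff]
  intro g hg
  rw [Fintype.sum_sum_type] at hg
  simp only [Sum.elim_inl, Sum.elim_inr] at hg
  -- coordinate equations
  have hE : ∀ k : Fin n, (g (Sum.inl k) : ℂ)
      + ∑ j : NonDiv n, (g (Sum.inr j) : ℂ) * ζ ^ ((j.1 : ℕ) * (k : ℕ)) = 0 := by
    intro k
    have h2 := congrFun hg k
    simp only [Pi.add_apply, Finset.sum_apply, Pi.smul_apply, Pi.zero_apply, bas, row,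
      Pi.single_apply, Rat.smul_def] at h2
    rw [← h2]
    congr 1
    simp
  -- the polynomial
  set A : ℚ[X] := ∑ k : Fin n, C (g (Sum.inl k)) * X ^ (k : ℕ) with hA
  have hAeval : ∀ z : ℂ, aeval z A = ∑ k : Fin n, (g (Sum.inl k) : ℂ) * z ^ (k : ℕ) := by
    intro z
    simp [hA, map_sum]
  -- the key identity
  have hI : ∀ m : ℕ, aeval (ξ ^ m) A
      + ∑ j : NonDiv n, (g (Sum.inr j) : ℂ) * ∑ k : Fin n, (ζ ^ (j.1 : ℕ) * ξ ^ m) ^ (k : ℕ) = 0 := by
    intro m
    have h0 : ∑ k : Fin n, ((g (Sum.inl k) : ℂ)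
        + ∑ j : NonDiv n, (g (Sum.inr j) : ℂ) * ζ ^ ((j.1 : ℕ) * (k : ℕ))) * (ξ ^ m) ^ (k : ℕ)
        = 0 := by
      apply Finset.sum_eq_zero
      intro k _
      rw [hE k, zero_mul]
    rw [← h0, hAeval]
    simp only [add_mul, Finset.sum_add_distrib, Finset.sum_mul, Finset.mul_sum]
    congr 1
    rw [Finset.sum_comm]
    apply Finset.sum_congr rfl
    intro k _
    apply Finset.sum_congr rfl
    intro j _
    rw [mul_pow, ← pow_mul, mul_assoc]
  have hinner : ∀ (j : NonDiv n) (m : ℕ), m < n → (j.1 : ℕ) ≠ m →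
      ∑ k : Fin n, (ζ ^ (j.1 : ℕ) * ξ ^ m) ^ (k : ℕ) = 0 := by
    intro j m hm hjm
    apply geom_zero
    · rw [mul_pow, ← pow_mul, ← pow_mul, mul_comm (j.1 : ℕ) n, mul_comm m n, pow_mul, pow_mul,
        hprim.pow_eq_one, hprimξ.pow_eq_one, one_pow, one_pow, one_mul]
    · intro h1
      apply hjm
      have h2 : ζ ^ (j.1 : ℕ) = ζ ^ m := by
        have h3 : ζ ^ (j.1 : ℕ) * ξ ^ m * ζ ^ m = ζ ^ m := by rw [h1, one_mul]
        rw [mul_assoc, ← mul_pow, mul_comm ξ ζ, hζξ, one_pow, mul_one] at h3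
        exact h3
      exact hprim.pow_inj j.1.isLt hm h2
  have hinner' : ∀ (j : NonDiv n), ∑ k : Fin n, (ζ ^ (j.1 : ℕ) * ξ ^ (j.1 : ℕ)) ^ (k : ℕ) = n := by
    intro j
    rw [← mul_pow, hζξ, one_pow]
    simp
  -- bad indices give roots of `A`
  have hbad : ∀ m : ℕ, m < n → (m = 0 ∨ m ∣ n) → aeval (ξ ^ m) A = 0 := by
    intro m hm hmbad
    have h1 := hI m
    have h2 : ∑ j : NonDiv n, (g (Sum.inr j) : ℂ)
        * ∑ k : Fin n, (ζ ^ (j.1 : ℕ) * ξ ^ m) ^ (k : ℕ) = 0 := by
      apply Finset.sum_eq_zero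
      intro j _
      rw [hinner j m hm, mul_zero]
      intro hjm
      rcases hmbad with h | h
      · exact j.2.1 (hjm.trans h)
      · exact j.2.2 (hjm ▸ h)
    rw [h2, add_zero] at h1
    exact h1
  -- the coefficients of the rows vanish
  have hr : ∀ j : NonDiv n, g (Sum.inr j) = 0 := by
    intro j0
    have hj0pos : 0 < (j0.1 : ℕ) := Nat.pos_of_ne_zero j0.2.1
    set d := Nat.gcd (j0.1 : ℕ) n with hd
    have hdpos : 0 < d := Nat.gcd_pos_of_pos_left _ hj0pos
    have hdn : d ∣ n := Nat.gcd_dvd_right _ _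
    have hdj : d ∣ (j0.1 : ℕ) := Nat.gcd_dvd_left _ _
    have hdlt : d < n := lt_of_le_of_lt (Nat.le_of_dvd hj0pos hdj) j0.1.isLt
    set e := n / d with he
    have hne : n = d * e := (Nat.mul_div_cancel' hdn).symm
    have hepos : 0 < e := Nat.div_pos (Nat.le_of_dvd (by omega) hdn) hdpos
    have hμ1 : IsPrimitiveRoot (ξ ^ d) e := hprimξ.pow (by omega) hne
    have hcop : Nat.Coprime ((j0.1 : ℕ) / d) e := Nat.coprime_div_gcd_div_gcd hdpos
    have hμ2 : IsPrimitiveRoot ((ξ ^ d) ^ ((j0.1 : ℕ) / d)) e := hμ1.pow_of_coprime _ hcop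
    have hpow : (ξ ^ d) ^ ((j0.1 : ℕ) / d) = ξ ^ (j0.1 : ℕ) := by
      rw [← pow_mul, Nat.mul_div_cancel' hdj]
    rw [hpow] at hμ2
    have hroot1 : aeval (ξ ^ d) A = 0 := hbad d hdlt (Or.inr hdn)
    have hmin : minpoly ℚ (ξ ^ d) = minpoly ℚ (ξ ^ (j0.1 : ℕ)) := by
      rw [← Polynomial.cyclotomic_eq_minpoly_rat hμ1 hepos,
        ← Polynomial.cyclotomic_eq_minpoly_rat hμ2 hepos]
    obtain ⟨B, hB⟩ := minpoly.dvd ℚ (ξ ^ d) hroot1
    have hroot2 : aeval (ξ ^ (j0.1 : ℕ)) A = 0 := by
      rw [hB, hmin, map_mul, minpoly.aeval, zero_mul]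
    have h1 := hI (j0.1 : ℕ)
    rw [hroot2, zero_add, Finset.sum_eq_single j0] at h1
    · rw [hinner' j0] at h1
      have hn' : (n : ℂ) ≠ 0 := Nat.cast_ne_zero.mpr hn0
      have := (mul_eq_zero.mp h1).resolve_right hn'
      exact_mod_cast this
    · intro j _ hjj
      rw [hinner j _ j0.1.isLt, mul_zero]
      intro hcon
      exact hjj (Subtype.ext (Fin.ext hcon))
    · intro hcon
      exact absurd (Finset.mem_univ j0) hcon
  have hl : ∀ k : Fin n, g (Sum.inl k) = 0 := by
    intro k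
    have h2 := hE k
    simp only [hr, Rat.cast_zero, zero_mul, Finset.sum_const_zero, add_zero] at h2
    exact_mod_cast h2
  intro i
  cases i with
  | inl k => exact hl k
  | inr j => exact hr j

/-- **Lower bound for linear circuits computing the discrete Fourier transform, all `n`.**
Every linear circuit (gates `u + v`, `u - v`, `λ • u`, each of cost one, arbitrary complex
scalars, unrestricted depth and reuse) that computes the unnormalized discrete Fourier
transform of order `n ≥ 2` has at least `3 n - d(n) - 2` gates, where `d(n)` is the number of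
positive divisors of `n`. -/
theorem result (n : ℕ) (hn : 2 ≤ n) (c : List Gate) (out : Fin n → ℕ)
    (h : ComputesDFT n c out) : 3 * n ≤ c.length + (Nat.divisors n).card + 2 := by
  have : NeZero n := ⟨by omega⟩
  set ζ : ℂ := Complex.exp (2 * Real.pi * Complex.I / n) with hζ
  have hprim : IsPrimitiveRoot ζ n := Complex.isPrimitiveRoot_exp n (by omega)
  have hζ0 : ζ ≠ 0 := Complex.exp_ne_zero _
  have hrow : ∀ j, (coefRun n c).getD (out j) 0 = row n j := coef_out h
  have hfull : ∀ j, Full (row n j) := fun j k => pow_ne_zero _ hζ0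
  have hrowmem : ∀ j, row n j ∈ coefRun n c := by
    intro j
    rcases getD_cases (coefRun n c) (out j) with hm | hz
    · rw [hrow] at hm; exact hm
    · rw [hrow] at hz; exact absurd (congrFun hz 0) (hfull j 0)
  -- scalar gates
  obtain ⟨T, hT, hTbas, hTmem⟩ := inv_smul n c
  have hLI := li_family2 n hn
  have hS : n + Fintype.card (NonDiv n) ≤ T.card := by
    have := linearIndependent_le_span_aux' _ hLI (T : Set (Fin n → ℂ)) (by
      rintro _ ⟨i, rfl⟩
      cases i with
      | inl k => exact hTbas k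
      | inr j => exact hTmem _ (hrowmem _))
    simpa using this
  have hcard := card_nonDiv n hn
  -- additions and subtractions
  obtain ⟨l, hcls, h1, h2⟩ := inv_bin n hn c
  have hN : n ≤ (Nset (coefRun n c)).card := by
    have hsub : Finset.univ.image (row n) ⊆ Nset (coefRun n c) := by
      intro x hx
      simp only [Finset.mem_image, Finset.mem_univ, true_and] at hx
      obtain ⟨j, rfl⟩ := hx
      simp only [Nset, Finset.mem_image, Finset.mem_filter, List.mem_toFinset]
      refine ⟨row n j, ⟨hrowmem j, hfull j⟩, ?_⟩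
      unfold nrm
      simp [row]
    have hinj : Function.Injective (row n) := by
      intro j j' hjj
      have := congrFun hjj ⟨1, by omega⟩
      simp only [row, mul_one] at this
      exact Fin.ext (hprim.pow_inj j.2 j'.2 this)
    calc n = (Finset.univ.image (row n)).card := by
          rw [Finset.card_image_of_injective _ hinj]; simp
      _ ≤ _ := Finset.card_le_card hsub
  have hl : (Finset.univ.image l).card ≤ 1 := by
    apply Finset.card_le_one.mpr
    intro x hx y hy
    simp only [Finset.mem_image, Finset.mem_univ, true_and] at hx hy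
    obtain ⟨k, rfl⟩ := hx
    obtain ⟨k', rfl⟩ := hy
    exact hcls _ (hrowmem 0) k k' (hfull 0 k) (hfull 0 k')
  have hlen := List.length_eq_countP_add_countP Gate.isSmul (l := c)
  omega

end Vale.Agent.Results.P344.DftGateLowerBoundAllN
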